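import Vale.Agent.P057Z.Bas0
import Vale.Agent.P057Z.Rg.Base

/-! The last step: normalisation, localisation, removal of the linear frequencies. -/

set_option linter.all false

open Finset
open scoped BigOperators

namespace Vale.Agent.P057Z.Fn

open Vale.Agent.P057Z.Ke Vale.Agent.P057Z.Rg

variable {Q : ℕ} [Fact Q.Prime] {n : ℕ} {ι : Type} [Fintype ι] [DecidableEq ι]

theorem lap_ll {ρ : ℝ} (hρ : 0 < ρ) : LL (1 / ρ) (lap ρ : (ι → ZMod Q) → ℝ) := by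
  refine ⟨fun u => Real.exp_pos _, fun u => ?_, fun u v => ?_⟩
  · unfold lap
    rw [Real.exp_le_one_iff]
    exact div_nonpos_of_nonpos_of_nonneg (neg_nonpos.2 (l1_nonneg u)) hρ.le
  · unfold lap
    rw [← Real.exp_add]
    refine Real.exp_le_exp.2 ?_
    have h := l1_sub_le (u + v) v
    rw [add_sub_cancel_right] at h
    have e : 1 / ρ * l1 v + -l1 u / ρ = (l1 v - l1 u) / ρ := by ring
    rw [e]
    exact div_le_div_of_nonneg_right (by linarith) hρ.le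

theorem lap_zero (ρ : ℝ) (u : Fin 0 → ZMod Q) : lap ρ u = 1 := by
  simp [lap, l1]

theorem mas_zero (ρ : ℝ) {T : ℕ} (hT : 1 ≤ T) :
    mas (0 : V Q n →ₗ[ZMod Q] (Fin 0 → ZMod Q)) 0 ρ T = 1 := by
  unfold mas
  simp only [lap_zero]
  exact expect_const (bx_ne hT) 1

theorem bet_zero (ρ : ℝ) {T : ℕ} (hT : 1 ≤ T) (x : V Q n) :
    bet (0 : V Q n →ₗ[ZMod Q] (Fin 0 → ZMod Q)) 0 ρ T x = 1 := by
  unfold bet
  rw [mas_zero ρ hT, lap_zero, div_one]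

theorem avg_ev (hA : AVG) {q : Quad Q n ι} {K : Submodule (ZMod Q) (ι → ZMod Q)} (h : Triv q K)
    (Ψ : (ι → ZMod Q) → ℝ) (x : V Q n) : avg K Ψ (q.ev x) = avg K Ψ q.c := by
  obtain ⟨v, hv, e⟩ := h.ev x
  rw [e, (hA Q ι K Ψ).2.1 _ v hv]

theorem avg_lower {K : Submodule (ZMod Q) (ι → ZMod Q)} {Ψ : (ι → ZMod Q) → ℝ} {lam ρ : ℝ}
    (h : LL lam Ψ) (hρ : 0 < ρ) (hl : lam ≤ 1 / ρ) (u : ι → ZMod Q) :
    Ψ u * avg K (lap ρ) 0 ≤ avg K Ψ u := by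
  unfold avg
  rw [mul_expect]
  refine expect_le_expect fun v _ => ?_
  have h1 := (h.mono hl).lip (u + v) (-v)
  rw [add_neg_cancel_right, l1_neg] at h1
  rw [zero_add]
  have h2 : Real.exp (1 / ρ * l1 v) * lap ρ v = 1 := by
    unfold lap
    rw [← Real.exp_add, show 1 / ρ * l1 v + -l1 v / ρ = 0 by ring, Real.exp_zero]
  have h3 : 0 < lap ρ v := Real.exp_pos _
  calc Ψ u * lap ρ v ≤ Real.exp (1 / ρ * l1 v) * Ψ (u + v) * lap ρ v := by gcongr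
    _ = Real.exp (1 / ρ * l1 v) * lap ρ v * Ψ (u + v) := by ring
    _ = Ψ (u + v) := by rw [h2, one_mul]

theorem mix_one {Tlo Thi : ℕ} {δ : ℝ} (hδ : 0 ≤ δ) : Mix (fun _ : V Q n => (1 : ℝ)) Tlo Thi δ := by
  intro T1 T2 _ _ _ _ c s _ u v _ _
  simpa using hδ

theorem mix_of (hA : AVG) (hE : EQ) (hQ : 2 < Q) {q : Quad Q n ι}
    {K : Submodule (ZMod Q) (ι → ZMod Q)} (h : Triv q K) {Ψ : (ι → ZMod Q) → ℝ} {lam : ℝ}
    (hL : LL lam Ψ) {K0 K1 Tlo Thi Tlo' Thi' : ℕ} {M η δ δ' : ℝ} (hF : FA Ψ K0 M η)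
    (hR : Reg q.B K K1 δ Tlo Thi) (hδ : 0 ≤ δ) (hK : K0 ≤ K1) (h1 : 1 ≤ Tlo) (hlo : Tlo ≤ Tlo')
    (hhi : Thi' ≤ Thi) (hδ' : M * δ + 2 * η ≤ δ' * avg K Ψ q.c) (x0 : V Q n) :
    Mix (fun x => Ψ (q.ev (x0 + x)) / avg K Ψ q.c) Tlo' Thi' δ' := by
  intro T1 T2 a1 a2 a3 a4 c s hs u v hu hv
  have hm : 0 < avg K Ψ q.c := ((hA Q ι K Ψ).1 lam hL).pos _
  have hs0 : (s : ZMod Q) ≠ 0 := by
    rcases hs with rfl | rfl <;> simp
  have hs1 : s.natAbs * K0 ≤ K1 := by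
    rcases hs with rfl | rfl <;> simpa using hK
  set b : V Q n → ι → ZMod Q := fun y =>
    q.l (s • y) + q.B (x0 + c) (s • y) + (2 : ZMod Q)⁻¹ • q.B (s • y) (s • y) with hb
  have hbp : ∀ y, b y ∈ perp K := fun y =>
    P057Z.perp_add (P057Z.perp_add (h.1 _) (h.2 _ _)) (P057Z.perp_smul _ (h.2 _ _))
  have k := (hE Q n ι ι q.B K K0 K0 K1 Tlo Thi T1 T2 δ M η M η 1 s Ψ Ψ
    (fun x => q.ev (x0 + c + x)) b (fun _ => 0) (fun _ => 0) u v hR hδ h.2 hs0 hs1 h1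
    (hlo.trans a1) (a2.trans hhi) (hlo.trans a3) (a4.trans hhi) hF hF
    (fun z => by rw [abs_of_pos (hL.pos z)]; exact hL.le_one z) hu hv).1
  have e : ∀ x y, u x * v y * (Ψ (q.ev (x0 + (c + x + s • y))) / avg K Ψ q.c - 1) =
      u x * v y * (Ψ (s • q.B x y + q.ev (x0 + c + x) + b y) -
        avg K Ψ (q.ev (x0 + c + x) + b y)) / avg K Ψ q.c := by
    intro x y
    have e1 : q.ev (x0 + (c + x + s • y)) = s • q.B x y + q.ev (x0 + c + x) + b y := by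
      rw [show x0 + (c + x + s • y) = (x0 + c + x) + s • y by abel, q.ev_add hQ, hb]
      have : q.B (x0 + c + x) (s • y) = q.B (x0 + c) (s • y) + s • q.B x y := by
        rw [map_add, LinearMap.add_apply, map_zsmul (q.B x)]
      rw [this]
      simp only []
      generalize s • q.B x y = w
      generalize q.ev (x0 + c + x) = w'
      generalize (2 : ZMod Q)⁻¹ • q.B (s • y) (s • y) = w2
      generalize q.l (s • y) = w3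
      generalize q.B (x0 + c) (s • y) = w4
      abel
    rw [e1, (hA Q ι K Ψ).2.1 _ _ (hbp y), avg_ev hA h]
    field_simp
  simp only [e]
  simp only [← expect_div]
  rw [abs_div, abs_of_pos hm, div_le_iff₀ hm]
  exact k.trans hδ'

/-- localisation of a rectangle to three small scales -/
theorem loc3 {T T' T2 T3 T4 : ℕ} {H : V Q n → V Q n → ℝ} {S : ℝ} (h : ∀ a b, |H a b| ≤ S)
    (hT : 1 ≤ T) (hTQ : T ≤ Q) (hT' : 1 ≤ T') (hTQ' : T' ≤ Q) (h2 : 1 ≤ T2) (h3 : 1 ≤ T3)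
    (h4 : 1 ≤ T4) :
    ∃ a0 b0, 𝔼 a ∈ bx Q n T, 𝔼 b ∈ bx Q n T', H a b ≤
      (𝔼 a1 ∈ bx Q n T3, 𝔼 a2 ∈ bx Q n T4, 𝔼 t ∈ bx Q n T2, H (a0 + (a1 + a2)) (b0 + t)) +
        (2 * n * ((T3 + T4 : ℕ) : ℝ) / T * S + 2 * n * T2 / T' * S) := by
  have hM : 0 ≤ S := (abs_nonneg _).trans (h 0 0)
  have ne : (bx Q n T3 ×ˢ bx Q n T4).Nonempty := (bx_ne h3).product (bx_ne h4)
  obtain ⟨a0, k1⟩ := sub1 ne (p := fun p => p.1 + p.2) (t := T3 + T4)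
    (g := fun a => 𝔼 b ∈ bx Q n T', H a b) (fun a => abs_av hM fun b _ => h a b)
    (fun p hp => Rg.near_add (near_bx (mem_product.1 hp).1) (near_bx (mem_product.1 hp).2)) hT hTQ
  obtain ⟨b0, k2⟩ := sub1 (bx_ne (Q := Q) (n := n) h2) (p := fun t => t) (t := T2)
    (g := fun b => 𝔼 p ∈ bx Q n T3 ×ˢ bx Q n T4, H (a0 + (p.1 + p.2)) b)
    (fun b => abs_av hM fun a _ => h _ b) (fun a ha => near_bx ha) hT' hTQ'
  refine ⟨a0, b0, k1.trans ?_⟩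
  rw [expect_comm] at k2
  rw [expect_comm (bx Q n T2), expect_product, expect_product] at k2
  rw [expect_product]
  linarith

/-- the input of the sifting step -/
theorem km_in {T2 T3 T4 Tlo Thi : ℕ} {u v χ g : V Q n → ℝ} {θ κ G δ : ℝ} (hu : U01 u) (hv : U01 v)
    (hχ : ∀ x, 0 ≤ χ x) (hg : ∀ x, 0 ≤ g x ∧ g x ≤ G) (hM : Mix χ Tlo Thi δ) (h2 : 1 ≤ T2)
    (h3 : 1 ≤ T3) (h4 : 1 ≤ T4) (a1 : Tlo ≤ T3) (a2 : T3 ≤ Thi) (a3 : Tlo ≤ T2) (a4 : T2 ≤ Thi)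
    (hθ : 0 ≤ θ) (hθ2 : θ ≤ 2) (hG : 0 < G) (hδ1 : 2 * δ ≤ κ) (hδ2 : G * δ ≤ κ / 2)
    (h : κ ≤ 𝔼 a1 ∈ bx Q n T3, 𝔼 a2 ∈ bx Q n T4, 𝔼 t ∈ bx Q n T2,
      u (a1 + a2) * v t * χ (a1 + a2 + t) * (g (a1 + a2 + t) - θ)) :
    κ / (2 * G) ≤ (𝔼 a1 ∈ bx Q n T3, 𝔼 a2 ∈ bx Q n T4, u (a1 + a2)) ∧
    κ / (2 * G) ≤ (𝔼 t ∈ bx Q n T2, v t) ∧
    θ * (𝔼 a1 ∈ bx Q n T3, 𝔼 a2 ∈ bx Q n T4, u (a1 + a2)) * (𝔼 t ∈ bx Q n T2, v t) ≤
      𝔼 a1 ∈ bx Q n T3, 𝔼 a2 ∈ bx Q n T4, 𝔼 t ∈ bx Q n T2,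
        u (a1 + a2) * v t * (g (a1 + a2 + t) * χ (a1 + a2 + t)) := by
  set Eu := 𝔼 a1 ∈ bx Q n T3, 𝔼 a2 ∈ bx Q n T4, u (a1 + a2) with hEu
  set Ev := 𝔼 t ∈ bx Q n T2, v t with hEv
  set A := 𝔼 a1 ∈ bx Q n T3, 𝔼 a2 ∈ bx Q n T4, 𝔼 t ∈ bx Q n T2,
    u (a1 + a2) * v t * (g (a1 + a2 + t) * χ (a1 + a2 + t)) with hA
  set D := 𝔼 a1 ∈ bx Q n T3, 𝔼 a2 ∈ bx Q n T4, 𝔼 t ∈ bx Q n T2,
    u (a1 + a2) * v t * χ (a1 + a2 + t) with hD
  have u1 : ∀ x, |u x| ≤ 1 := fun x => by rw [abs_of_nonneg (hu x).1]; exact (hu x).2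
  have v1 : ∀ x, |v x| ≤ 1 := fun x => by rw [abs_of_nonneg (hv x).1]; exact (hv x).2
  have e1 : (𝔼 a1 ∈ bx Q n T3, 𝔼 a2 ∈ bx Q n T4, 𝔼 t ∈ bx Q n T2,
      u (a1 + a2) * v t * χ (a1 + a2 + t) * (g (a1 + a2 + t) - θ)) = A - θ * D := by
    rw [hA, hD]
    simp only [mul_expect, ← expect_sub_distrib]
    refine expect_congr rfl fun _ _ => expect_congr rfl fun _ _ => expect_congr rfl fun _ _ => ?_
    ring
  have e2 : D - Eu * Ev = 𝔼 a2 ∈ bx Q n T4, 𝔼 a1 ∈ bx Q n T3, 𝔼 t ∈ bx Q n T2,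
      u (a1 + a2) * v t * (χ (a2 + a1 + (1 : ℤ) • t) - 1) := by
    have e3 : Eu * Ev = 𝔼 a1 ∈ bx Q n T3, 𝔼 a2 ∈ bx Q n T4, 𝔼 t ∈ bx Q n T2,
        u (a1 + a2) * v t := by
      rw [hEu, expect_mul]
      refine expect_congr rfl fun a _ => ?_
      rw [expect_mul]
      refine expect_congr rfl fun b _ => ?_
      rw [hEv, mul_expect]
    rw [e3, hD, expect_comm (bx Q n T4) (bx Q n T3)]
    simp only [← expect_sub_distrib]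
    refine expect_congr rfl fun a _ => expect_congr rfl fun b _ => expect_congr rfl fun _ _ => ?_
    rw [one_zsmul, add_comm b a]
    ring
  have hδ0 : 0 ≤ δ := (abs_nonneg _).trans (hM T3 T2 a1 a2 a3 a4 0 1 (Or.inl rfl) u v u1 v1)
  have k1 : |D - Eu * Ev| ≤ δ := by
    rw [e2]
    exact abs_av hδ0 fun b _ => hM T3 T2 a1 a2 a3 a4 b 1 (Or.inl rfl) (fun a => u (a + b)) v
      (fun a => u1 _) v1
  have k2 : A ≤ G * D := by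
    rw [hA, hD]
    simp only [mul_expect]
    refine expect_le_expect fun a _ => expect_le_expect fun b _ => expect_le_expect fun t _ => ?_
    have := mul_le_mul_of_nonneg_left (hg (a + b + t)).2
      (mul_nonneg (mul_nonneg (hu (a + b)).1 (hv t).1) (hχ (a + b + t)))
    linarith
  have k3 : 0 ≤ D := expect_nonneg fun a _ => expect_nonneg fun b _ => expect_nonneg fun t _ =>
    mul_nonneg (mul_nonneg (hu _).1 (hv _).1) (hχ _)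
  have Eu0 : 0 ≤ Eu := expect_nonneg fun a _ => expect_nonneg fun b _ => (hu _).1
  have Ev0 : 0 ≤ Ev := expect_nonneg fun a _ => (hv _).1
  have Eu1 : Eu ≤ 1 := expect_le (bx_ne h3) fun a _ => expect_le (bx_ne h4) fun b _ => (hu _).2
  have Ev1 : Ev ≤ 1 := expect_le (bx_ne h2) fun a _ => (hv _).2
  rw [e1] at h
  obtain ⟨k4, k5⟩ := abs_le.1 k1
  have k6 : κ / (2 * G) ≤ Eu * Ev := by
    rw [div_le_iff₀ (by positivity)]
    have : 0 ≤ θ * D := mul_nonneg hθ k3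
    have : G * D ≤ G * (Eu * Ev + δ) := by gcongr; linarith
    linarith
  refine ⟨k6.trans (mul_le_of_le_one_right Eu0 Ev1), k6.trans (mul_le_of_le_one_left Ev0 Eu1), ?_⟩
  have : θ * (Eu * Ev - δ) ≤ θ * D := by gcongr; linarith
  have : θ * δ ≤ 2 * δ := by gcongr
  linarith

/-- removal of the linear frequencies -/
theorem last {n' r T T' T0 : ℕ} {ξ : Fin r → V Q n} {F : V Q n → ℝ} {S κ ρ τ ε : ℝ}
    {P : V Q n' →ₗ[ZMod Q] V Q n} (t2 : V Q n) (hF : ∀ x, |F x| ≤ S) (hρ : 0 < ρ) (hT : 1 ≤ T)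
    (hTQ : T ≤ Q) (hT' : 1 ≤ T') (hP : SmallMap P T0)
    (hξ : ∀ i m, nm (ξ i ⬝ᵥ P (Pi.single m 1)) ≤ τ) (hε : 1 / ρ * (r * (n' * (T' * τ))) ≤ ε)
    (hε0 : 0 ≤ ε) (hε1 : ε ≤ 1) (hκ : 0 ≤ κ)
    (hs : 2 * n * ((n' * T0 * T' : ℕ) : ℝ) / T * S + 2 * ε * S ≤ κ / 2)
    (h : κ ≤ 𝔼 t1 ∈ bx Q n T, lap ρ (fun i => ξ i ⬝ᵥ (t1 - t2)) * F t1) :
    ∃ t0, κ / 2 ≤ 𝔼 t ∈ bx Q n' T', F (t0 + P t) := by
  have hS : 0 ≤ S := (abs_nonneg _).trans (hF 0)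
  have hL : LL (1 / ρ) (lap ρ : (Fin r → ZMod Q) → ℝ) := lap_ll hρ
  obtain ⟨t0, k⟩ := sub1 (bx_ne (Q := Q) (n := n') hT') (p := fun t => P t) (t := n' * T0 * T')
    (g := fun t1 => lap ρ (fun i => ξ i ⬝ᵥ (t1 - t2)) * F t1) (M := S)
    (fun x => by
      rw [abs_mul, abs_of_pos (hL.pos _)]
      exact (mul_le_of_le_one_left (abs_nonneg _) (hL.le_one _)).trans (hF x))
    (fun a ha => Rg.near_map hP (near_bx ha)) hT hTQ
  refine ⟨t0, ?_⟩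
  set l0 := lap ρ (fun i => ξ i ⬝ᵥ (t0 - t2)) with hl0
  have k2 : (𝔼 t ∈ bx Q n' T', lap ρ (fun i => ξ i ⬝ᵥ (t0 + P t - t2)) * F (t0 + P t)) ≤
      l0 * (𝔼 t ∈ bx Q n' T', F (t0 + P t)) + 2 * ε * S := by
    rw [mul_expect, ← expect_const (bx_ne (Q := Q) (n := n') hT') (2 * ε * S),
      ← expect_add_distrib]
    refine expect_le_expect fun t ht => ?_
    have e : (fun i => ξ i ⬝ᵥ (t0 + P t - t2)) =
        (fun i => ξ i ⬝ᵥ (t0 - t2)) + fun i => ξ i ⬝ᵥ P t := by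
      funext i
      rw [Pi.add_apply, ← dotProduct_add]
      congr 1
      abel
    have b1 : l1 (fun i => ξ i ⬝ᵥ P t) ≤ r * (n' * (T' * τ)) := by
      have := l1_le_card (u := fun i => ξ i ⬝ᵥ P t) (s := n' * (T' * τ)) fun i =>
        nm_lin (θ := (dotL (ξ i)).comp P) (hξ i) (near_bx ht)
      simpa using this
    have b2 := ll_pert hL (v := fun i => ξ i ⬝ᵥ P t)
      ((mul_le_mul_of_nonneg_left b1 (by positivity)).trans hε) hε0 hε1 (fun i => ξ i ⬝ᵥ (t0 - t2))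
    rw [e]
    have b3 := abs_mul (lap ρ ((fun i => ξ i ⬝ᵥ (t0 - t2)) + fun i => ξ i ⬝ᵥ P t) - l0)
      (F (t0 + P t))
    have b4 := mul_le_mul b2 (hF (t0 + P t)) (abs_nonneg _) (by positivity)
    have b5 := le_abs_self ((lap ρ ((fun i => ξ i ⬝ᵥ (t0 - t2)) + fun i => ξ i ⬝ᵥ P t) - l0) *
      F (t0 + P t))
    linarith
  have k3 : κ / 2 ≤ l0 * (𝔼 t ∈ bx Q n' T', F (t0 + P t)) := by linarith
  have p0 : 0 < l0 := hL.pos _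
  have p1 : l0 ≤ 1 := hL.le_one _
  have p2 : 0 ≤ 𝔼 t ∈ bx Q n' T', F (t0 + P t) :=
    nonneg_of_mul_nonneg_right (by linarith : 0 ≤ l0 * _) p0 |> fun h => h
  exact k3.trans (mul_le_of_le_one_left p2 p1)

end Vale.Agent.P057Z.Fn
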