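import Vale.Agent.P057Z.Fn.Num

/-! The last step. -/

set_option linter.all false

open Finset
open scoped BigOperators

namespace Vale.Agent.P057Z.Fn

open Vale.Agent.P057Z.Ke Vale.Agent.P057Z.Rg Real

variable {Q : ℕ} [Fact Q.Prime] {n : ℕ} {ι : Type} [Fintype ι] [DecidableEq ι]

/-- replacing the weight by its smoothing -/
theorem smooth_in {T T' : ℕ} {f u v : V Q n → ℝ} {Φ Φ' : V Q n → ℝ} {θ κ e : ℝ} (hu : U01 u)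
    (hv : U01 v) (hf : ∀ x, 0 ≤ f x) (hθ : 0 ≤ θ) (he : 0 ≤ e) (he1 : e ≤ 1)
    (h : ∀ x, (1 - e) * Φ x ≤ Φ' x ∧ Φ' x ≤ (1 + e) * Φ x)
    (hκ : κ ≤ 𝔼 a ∈ bx Q n T, 𝔼 b ∈ bx Q n T', u a * v b * Φ (a + b) * (f (a + b) - θ)) :
    (1 - e) * κ ≤ 𝔼 a ∈ bx Q n T, 𝔼 b ∈ bx Q n T',
      u a * v b * Φ' (a + b) * (f (a + b) - (1 - e) / (1 + e) * θ) := by
  refine (mul_le_mul_of_nonneg_left hκ (by linarith)).trans ?_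
  simp only [mul_expect]
  refine expect_le_expect fun a _ => expect_le_expect fun b _ => ?_
  have h0 : 0 ≤ u a * v b := mul_nonneg (hu a).1 (hv b).1
  have h1 := mul_le_mul_of_nonneg_right (h (a + b)).1 (hf (a + b))
  have h2 : Φ' (a + b) * ((1 - e) / (1 + e) * θ) ≤ (1 + e) * Φ (a + b) * ((1 - e) / (1 + e) * θ) :=
    mul_le_mul_of_nonneg_right (h (a + b)).2
      (mul_nonneg (div_nonneg (by linarith) (by linarith)) hθ)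
  have h3 : (1 + e) * Φ (a + b) * ((1 - e) / (1 + e) * θ) = (1 - e) * Φ (a + b) * θ := by
    field_simp
  have h4 : (1 - e) * (Φ (a + b) * (f (a + b) - θ)) ≤
      Φ' (a + b) * (f (a + b) - (1 - e) / (1 + e) * θ) := by linarith
  have h5 := mul_le_mul_of_nonneg_left h4 h0
  linarith

/-- the weight is not small somewhere -/
theorem some_big {T T' : ℕ} {f u v Φ : V Q n → ℝ} {θ κ G : ℝ} (hu : U01 u) (hv : U01 v)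
    (hf : ∀ x, f x ≤ G) (hG : 0 ≤ G) (hθ : 0 ≤ θ) (hΦ : ∀ x, 0 ≤ Φ x) (hT : 1 ≤ T) (hT' : 1 ≤ T')
    (hκ : κ ≤ 𝔼 a ∈ bx Q n T, 𝔼 b ∈ bx Q n T', u a * v b * Φ (a + b) * (f (a + b) - θ)) :
    ∃ x, κ ≤ Φ x * G := by
  obtain ⟨a, -, h⟩ := exists_le_of_le_expect (bx_ne hT) hκ
  obtain ⟨b, -, h⟩ := exists_le_of_le_expect (bx_ne hT') h
  refine ⟨a + b, h.trans ?_⟩
  have h0 : 0 ≤ u a * v b := mul_nonneg (hu a).1 (hv b).1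
  have h1 : u a * v b ≤ 1 := mul_le_one₀ (hu a).2 (hv b).1 (hv b).2
  have h2 : Φ (a + b) * (f (a + b) - θ) ≤ Φ (a + b) * G :=
    mul_le_mul_of_nonneg_left (by linarith [hf (a + b)]) (hΦ _)
  have h3 : 0 ≤ Φ (a + b) * G := mul_nonneg (hΦ _) hG
  calc u a * v b * Φ (a + b) * (f (a + b) - θ) = u a * v b * (Φ (a + b) * (f (a + b) - θ)) := by
        ring
    _ ≤ u a * v b * (Φ (a + b) * G) := mul_le_mul_of_nonneg_left h2 h0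
    _ ≤ Φ (a + b) * G := mul_le_of_le_one_left h3 h1

theorem pick2 {α : Type} {s t : Finset α} (hs : s.Nonempty) (ht : t.Nonempty) {p : α → α → Prop}
    [∀ a b, Decidable (p a b)] {η : ℝ} (hη : 0 < η)
    (h : η ≤ 𝔼 a ∈ s, 𝔼 b ∈ t, if p a b then (1 : ℝ) else 0) : ∃ a b, p a b := by
  obtain ⟨a, -, h⟩ := exists_le_of_le_expect hs h
  obtain ⟨b, -, h⟩ := exists_le_of_le_expect ht h
  refine ⟨a, b, ?_⟩
  by_contra hc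
  rw [if_neg hc] at h
  linarith

/-- from the output of the sifting step to the increment -/
theorem stage2 (hK : KILL) (hQ : 2 < Q) {r J T W T6 : ℕ} {f : V Q n → ℝ} {q : Quad Q n ι}
    {Ψ : (ι → ZMod Q) → ℝ} {lam m θ θ' B a κ κ' R Λ S : ℝ} {ξ : Fin r → V Q n} {x1 t2 : V Q n}
    (hL : LL lam Ψ) (hm : 0 < m) (hW : 2 ≤ W) (hlW : 1 ≤ log W) (h5 : W ^ 5 ≤ T)
    (hT6 : T6 = T / W ^ 5) (h4 : W ^ 4 ≤ T6) (hJ : 1 ≤ J) (hTQ : T < Q) (hrn : 2 * (2 * J) * r ≤ n)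
    (hR : ((2 * (2 * J) * r : ℕ) : ℝ) ≤ R) (hΛ : 9 * log W ≤ Λ) (hn : (n : ℝ) ≤ exp B)
    (hr : (r : ℝ) ≤ exp B) (hS : S ≤ exp B) (ha : a ≤ B) (hκ : exp (-B) ≤ κ) (hB : 10 ≤ B)
    (hWB : exp (10 * B) ≤ W) (hF : ∀ x, |Ψ (q.ev x) / m * (f x - θ)| ≤ S) (hθ : θ' ≤ θ)
    (hκ' : κ' ≤ κ / 2 * m)
    (h : κ ≤ 𝔼 t1 ∈ bx Q n T6, lap (exp (-a)) (fun i => ξ i ⬝ᵥ (t1 - t2)) *
      (Ψ (q.ev (x1 + t1)) / m * (f (x1 + t1) - θ))) :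
    Inc f θ' T R (1 / J) Λ (Fintype.card ι) lam κ' := by
  classical
  have hW1 : 1 ≤ W := by omega
  have hW6 : W ≤ T6 := le_trans (Nat.le_self_pow (by norm_num) _) h4
  have h6T : T6 ≤ T := hT6 ▸ Nat.div_le_self _ _
  obtain ⟨T0, P, hT0, hl, hP, hsm, hξ⟩ := hK Q n (2 * J) r T6 W (univ.image ξ)
    (card_image_le.trans (by simp)) (by omega) hrn hW1 hW6 (by omega)
  obtain ⟨s1, s2⟩ := side hW hlW h5 hT6 h4 hT0 hJ hl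
  set T' := T6 / (T0 * W ^ 2) with hT'
  have hS0 : 0 ≤ S := (abs_nonneg _).trans (hF 0)
  obtain ⟨e1, e2⟩ := err_last (n' := n - 2 * (2 * J) * r) (T' := T') hW1 (hW1.trans hW6)
    (Nat.sub_le _ _) (Nat.mul_div_le _ _) hT0 hn hr hS hS0 ha hκ hB hWB
  obtain ⟨t0, k⟩ := last (F := fun t => Ψ (q.ev (x1 + t)) / m * (f (x1 + t) - θ)) t2
    (fun x => hF _) (exp_pos _) (hW1.trans hW6) (by omega) s1 hsm
    (fun i m => hξ _ (mem_image_of_mem _ (mem_univ i)) m) e1 (exp_pos _).le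
    (exp_le_one_iff.2 (by linarith)) ((exp_pos _).le.trans hκ) e2 h
  refine Inc.mono (θ := θ) ⟨n - 2 * (2 * J) * r, T', ι, inferInstance, inferInstance, x1 + t0, P,
    q.comp (x1 + t0) P, Ψ, hP, ⟨?_, Nat.sub_le _ _, s1, (Nat.div_le_self _ _).trans h6T, s2⟩,
    le_rfl, hL, ?_⟩ hθ hR le_rfl hΛ le_rfl le_rfl hκ'
  · rw [Nat.cast_sub hrn]
    linarith
  · rw [← le_div_iff₀ hm, expect_div]
    refine k.trans (le_of_eq (expect_congr rfl fun t _ => ?_))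
    rw [q.ev_comp hQ, add_assoc]
    ring

theorem th_bounds {ε θ : ℝ} (hε : 0 < ε) (hε1 : ε ≤ 1 / 100) (h1 : 1 / 2 ≤ θ) (h2 : θ ≤ 2) :
    1 / 4 ≤ (1 - ε / 10) / (1 + ε / 10) * θ ∧ (1 - ε / 10) / (1 + ε / 10) * θ ≤ 2 ∧
      (1 - ε) * θ ≤ (1 - ε / 2) * ((1 - ε / 10) / (1 + ε / 10) * θ) := by
  have a1 : 1 - ε / 5 ≤ (1 - ε / 10) / (1 + ε / 10) := by
    rw [le_div_iff₀ (by linarith)]
    nlinarith
  have a2 : (1 - ε / 10) / (1 + ε / 10) ≤ 1 := by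
    rw [div_le_one (by linarith)]
    linarith
  generalize (1 - ε / 10) / (1 + ε / 10) = w at a1 a2
  refine ⟨by nlinarith, by nlinarith, ?_⟩
  have : 1 - ε ≤ (1 - ε / 2) * w := by nlinarith
  nlinarith

theorem num1 {Y Z B D κ δ m W : ℝ} {n : ℕ} (hY : 10 ≤ Y) (hYZ : Y ≤ Z) (hn : (n : ℝ) ≤ Z)
    (s1 : 10 * B ≤ D) (s2 : Z ^ 4 ≤ B) (s6 : 100 * Y ^ 2 ≤ Y ^ 4) (s7 : 10 * Y ≤ Y ^ 2)
    (s8 : 1000 * Z ≤ Z ^ 4) (s9 : Y ^ 4 ≤ Z ^ 4) (hκ : exp (-Y) ≤ κ) (hδ : δ ≤ exp (-D))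
    (hm : exp (-(4 * Y ^ 2)) ≤ m) (hW : exp D ≤ W) :
    exp (6 * Y ^ 2) * δ + 2 * exp (-D) ≤ exp (-B) * m ∧ 24 * n * exp Y ≤ κ * W ∧
      2 * exp (-B) ≤ κ / 2 ∧ exp Y * exp (-B) ≤ κ / 2 / 2 ∧
      exp (-Y ^ 4) ≤ κ / 2 / (2 * exp Y) := by
  have e3 : (4 : ℝ) ≤ exp Y := by linarith [add_one_le_exp Y]
  have eZ : 24 * Z ≤ exp (24 * Z) := by linarith [add_one_le_exp (24 * Z)]
  have hκ4 : exp (-(2 * Y)) ≤ κ / 4 := by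
    rw [le_div_iff₀ (by norm_num)]
    calc exp (-(2 * Y)) * 4 ≤ exp (-(2 * Y)) * exp Y := by gcongr
      _ = exp (-Y) := by rw [← exp_add]; ring_nf
      _ ≤ κ := hκ
  refine ⟨?_, ?_, ?_, ?_, ?_⟩
  · have a1 : (1 : ℝ) ≤ exp (6 * Y ^ 2) := one_le_exp (by positivity)
    have a2 : 0 < exp (-D) := exp_pos _
    calc exp (6 * Y ^ 2) * δ + 2 * exp (-D)
        ≤ exp (6 * Y ^ 2) * exp (-D) + 2 * (exp (6 * Y ^ 2) * exp (-D)) := by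
          gcongr
          exact le_mul_of_one_le_left a2.le a1
      _ = 3 * (exp (6 * Y ^ 2) * exp (-D)) := by ring
      _ ≤ exp Y * (exp (6 * Y ^ 2) * exp (-D)) := by gcongr; linarith
      _ = exp (Y + 6 * Y ^ 2 - D) := by simp only [← exp_add]; ring_nf
      _ ≤ exp (-B + -(4 * Y ^ 2)) := exp_le_exp.2 (by linarith)
      _ ≤ exp (-B) * m := by rw [exp_add]; gcongr
  · calc 24 * n * exp Y ≤ exp (24 * Z) * exp Y := by gcongr; linarith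
      _ = exp (24 * Z + Y) := by rw [← exp_add]
      _ ≤ exp (-Y + D) := exp_le_exp.2 (by linarith)
      _ ≤ κ * W := by
        rw [exp_add]
        exact mul_le_mul hκ hW (exp_pos _).le ((exp_pos _).le.trans hκ)
  · have : exp (-B) ≤ exp (-(2 * Y)) := exp_le_exp.2 (by linarith)
    linarith
  · have : exp Y * exp (-B) ≤ exp (-(2 * Y)) := by
      rw [← exp_add]
      exact exp_le_exp.2 (by linarith)
    linarith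
  · rw [le_div_iff₀ (by positivity)]
    have : exp (-Y ^ 4) * exp Y ≤ exp (-(2 * Y)) := by
      rw [← exp_add]
      exact exp_le_exp.2 (by linarith)
    linarith

theorem num2 {Y κ t m x e : ℝ} (hY : 10 ≤ Y) (s7 : 10 * Y ≤ Y ^ 2) (hκ : exp (-Y) ≤ κ)
    (he : e ≤ 1 / 2) (ht : exp (-(3 * Y ^ 2)) ≤ t) (hx : (1 - e) * κ ≤ x * exp Y)
    (hm : x * t ≤ m) : exp (-(4 * Y ^ 2)) ≤ m := by
  have hκ0 : 0 < κ := (exp_pos _).trans_le hκ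
  have e2 : (2 : ℝ) ≤ exp Y := by linarith [add_one_le_exp Y]
  have a1 : exp (-(3 * Y)) ≤ x := by
    refine le_of_mul_le_mul_right (le_trans ?_ hx) (exp_pos Y)
    have b1 : exp (-(3 * Y)) * exp Y * exp Y = exp (-Y) := by simp only [← exp_add]; ring_nf
    have b2 : exp (-(3 * Y)) * exp Y * 2 ≤ exp (-(3 * Y)) * exp Y * exp Y := by gcongr
    nlinarith
  calc exp (-(4 * Y ^ 2)) ≤ exp (-(3 * Y) + -(3 * Y ^ 2)) := exp_le_exp.2 (by linarith)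
    _ ≤ x * t := by
      rw [exp_add]
      exact mul_le_mul a1 ht (exp_pos _).le ((exp_pos _).le.trans a1)
    _ ≤ m := hm

/-- smoothing and normalisation -/
theorem stage0 (hS : SM) (hA : AVG) (hP : POP) {T T' : ℕ} {f u v : V Q n → ℝ} {q : Quad Q n ι}
    {Ψ : (ι → ZMod Q) → ℝ} {K : Submodule (ZMod Q) (ι → ZMod Q)} {Y D e θ lam κ : ℝ}
    (hY : 10 ≤ Y) (s7 : 10 * Y ≤ Y ^ 2) (hι : (Fintype.card ι : ℝ) ≤ Y) (hl0 : 0 ≤ lam)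
    (hl : lam ≤ exp Y) (he : exp (-Y) ≤ e) (he1 : e ≤ 1 / 4) (hD : D ≤ exp Y)
    (hQ : exp (5 * Y) ≤ Q) (hL : LL lam Ψ) (hTr : Triv q K) (hu : U01 u) (hv : U01 v)
    (hf : ∀ x, 0 ≤ f x ∧ f x ≤ exp Y) (hθ : 0 ≤ θ) (hκ : exp (-Y) ≤ κ) (hT : 1 ≤ T) (hT' : 1 ≤ T')
    (hR : κ ≤ 𝔼 a ∈ bx Q n T, 𝔼 b ∈ bx Q n T', u a * v b * Ψ (q.ev (a + b)) * (f (a + b) - θ)) :
    ∃ (Ψ' : (ι → ZMod Q) → ℝ) (K' : ℕ), (K' : ℝ) ≤ exp (5 * Y) ∧ LL lam Ψ' ∧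
      FA Ψ' K' (exp (6 * Y ^ 2)) (exp (-D)) ∧ exp (-(4 * Y ^ 2)) ≤ avg K Ψ' q.c ∧
      avg K Ψ' q.c ≤ 1 ∧
      (∀ x, 0 ≤ Ψ' (q.ev x) / avg K Ψ' q.c ∧ Ψ' (q.ev x) / avg K Ψ' q.c ≤ exp (3 * Y ^ 2)) ∧
      3 / 4 * κ ≤ 𝔼 a ∈ bx Q n T, 𝔼 b ∈ bx Q n T',
        u a * v b * Ψ' (q.ev (a + b)) * (f (a + b) - (1 - e) / (1 + e) * θ) := by
  have he0 : 0 ≤ e := (exp_pos _).le.trans he
  obtain ⟨Ψ', K', hK', hL', hΨ', hF⟩ := hS Q ι Y D lam e Ψ hY hι hl0 hl he (by linarith) hD hQ hL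
  have hR1 := smooth_in (Φ := fun x => Ψ (q.ev x)) (Φ' := fun x => Ψ' (q.ev x)) hu hv
    (fun x => (hf x).1) hθ he0 (by linarith) (fun x => hΨ' _) hR
  set m := avg K Ψ' q.c with hm
  have hLm := (hA Q ι K Ψ').1 lam hL'
  have m0 : 0 < m := hLm.pos _
  have hκ0 : 0 < κ := (exp_pos _).trans_le hκ
  have tm : exp (-(3 * Y ^ 2)) ≤ avg K (lap (exp (-Y))) 0 := (tm_lower hY hι).trans
    ((hP Q ι (exp (-Y)) (exp_pos _) (exp_le_one_iff.2 (by linarith))).2 K)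
  have low : ∀ x, Ψ' (q.ev x) * avg K (lap (exp (-Y))) 0 ≤ m := fun x => by
    rw [hm, ← avg_ev hA hTr Ψ' x]
    exact avg_lower hL' (exp_pos _) (by rw [exp_neg, one_div, inv_inv]; exact hl) _
  obtain ⟨xb, hxb⟩ := some_big (Φ := fun x => Ψ' (q.ev x)) hu hv (fun x => (hf x).2)
    (exp_pos _).le (mul_nonneg (div_nonneg (by linarith) (by linarith)) hθ)
    (fun x => (hL'.pos _).le) hT hT' hR1
  refine ⟨Ψ', K', hK', hL', hF, num2 hY s7 hκ (by linarith) tm hxb (low xb), hLm.le_one _,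
    fun x => ⟨div_nonneg (hL'.pos _).le m0.le, ?_⟩,
    (mul_le_mul_of_nonneg_right (by linarith) hκ0.le).trans hR1⟩
  rw [div_le_iff₀ m0]
  have h1 := (mul_le_mul_of_nonneg_left tm (hL'.pos (q.ev x)).le).trans (low x)
  have h2 : exp (3 * Y ^ 2) * exp (-(3 * Y ^ 2)) = 1 := by rw [← exp_add]; simp
  calc Ψ' (q.ev x) = exp (3 * Y ^ 2) * (Ψ' (q.ev x) * exp (-(3 * Y ^ 2))) := by
        rw [mul_left_comm, h2, mul_one]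
    _ ≤ exp (3 * Y ^ 2) * m := by gcongr

/-- localisation -/
theorem stage1 {T W T6 : ℕ} {f u v Φ : V Q n → ℝ} {G θ κ m : ℝ} (hu : U01 u) (hv : U01 v)
    (hΦ : U01 Φ) (hf : ∀ x, |f x - θ| ≤ G) (hW : 1 ≤ W) (hT : 1 ≤ T) (h6 : 1 ≤ T6)
    (h5 : W ^ 5 * T6 ≤ T) (hQ : W * T ≤ Q) (m0 : 0 < m) (m1 : m ≤ 1) (hκ : 0 ≤ κ)
    (hn : 24 * n * G ≤ κ * W)
    (hR : 3 / 4 * κ ≤ 𝔼 a ∈ bx Q n T, 𝔼 b ∈ bx Q n (W * T),
      u a * v b * Φ (a + b) * (f (a + b) - θ)) :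
    ∃ a0 b0, κ / 2 ≤ 𝔼 a1 ∈ bx Q n (W ^ 2 * T6), 𝔼 a2 ∈ bx Q n (W * T6),
      𝔼 t ∈ bx Q n (W ^ 3 * T6), u (a0 + (a1 + a2)) * v (b0 + t) *
        (Φ (a0 + b0 + (a1 + a2 + t)) / m) * (f (a0 + b0 + (a1 + a2 + t)) - θ) := by
  have hG : 0 ≤ G := (abs_nonneg _).trans (hf 0)
  obtain ⟨a0, b0, hloc⟩ := loc3 (T := T) (T' := W * T) (T2 := W ^ 3 * T6) (T3 := W ^ 2 * T6)
    (T4 := W * T6) (H := fun a b => u a * v b * Φ (a + b) * (f (a + b) - θ))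
    (S := G) (fun a b => by
      rw [abs_mul, abs_of_nonneg (mul_nonneg (mul_nonneg (hu a).1 (hv b).1) (hΦ _).1)]
      exact (mul_le_of_le_one_left (abs_nonneg _) (mul_le_one₀ (mul_le_one₀ (hu a).2 (hv b).1
        (hv b).2) (hΦ _).1 (hΦ _).2)).trans (hf _))
    hT ((Nat.le_mul_of_pos_left T hW).trans hQ) (Nat.mul_pos hW hT) hQ
    (Nat.mul_pos (Nat.pow_pos hW) h6) (Nat.mul_pos (Nat.pow_pos hW) h6) (Nat.mul_pos hW h6)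
  have herr := err_loc (n := n) hW hT h5 hG hn
  refine ⟨a0, b0, ?_⟩
  have e : ∀ a1 a2 t, u (a0 + (a1 + a2)) * v (b0 + t) *
      (Φ (a0 + b0 + (a1 + a2 + t)) / m) * (f (a0 + b0 + (a1 + a2 + t)) - θ) =
      u (a0 + (a1 + a2)) * v (b0 + t) * Φ (a0 + (a1 + a2) + (b0 + t)) *
        (f (a0 + (a1 + a2) + (b0 + t)) - θ) / m := fun a1 a2 t => by
    rw [show a0 + b0 + (a1 + a2 + t) = a0 + (a1 + a2) + (b0 + t) by abel]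
    ring
  simp only [e, ← expect_div]
  rw [le_div_iff₀ m0]
  have h1 : κ / 2 * m ≤ κ / 2 := mul_le_of_le_one_right (by linarith) m1
  linarith

open Classical in
/-- the sifting step with no linear forms -/
def KM0 (ε : ℝ) (c k : ℕ) : Prop :=
  ∀ (X Z : ℝ) (Q : ℕ) [Fact Q.Prime] (n : ℕ) (θ : ℝ) (W T6 : ℕ) (χ u v g : V Q n → ℝ),
    (k : ℝ) ≤ X → 0 ≤ X → X ≤ Z → Z ^ k ≤ exp X → (n : ℝ) ≤ Z → 1 ≤ T6 → exp (Z ^ k) ≤ W →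
    4 * (W ^ 3 * T6) ≤ Q → (∀ x, 0 ≤ χ x ∧ χ x ≤ exp X) →
    Mix χ T6 (2 * (W ^ 3 * T6)) (exp (-Z ^ k)) → U01 u → U01 v → (∀ x, 0 ≤ g x ∧ g x ≤ exp X) →
    exp (-X) ≤ θ → exp (-X) ≤ (𝔼 a1 ∈ bx Q n (W ^ 2 * T6), 𝔼 a2 ∈ bx Q n (W * T6), u (a1 + a2)) →
    exp (-X) ≤ (𝔼 t ∈ bx Q n (W ^ 3 * T6), v t) →
    θ * (𝔼 a1 ∈ bx Q n (W ^ 2 * T6), 𝔼 a2 ∈ bx Q n (W * T6), u (a1 + a2)) *
        (𝔼 t ∈ bx Q n (W ^ 3 * T6), v t) ≤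
      (𝔼 a1 ∈ bx Q n (W ^ 2 * T6), 𝔼 a2 ∈ bx Q n (W * T6), 𝔼 t ∈ bx Q n (W ^ 3 * T6),
        u (a1 + a2) * v t * (g (a1 + a2 + t) * χ (a1 + a2 + t))) →
    ∃ (ξ : Fin ⌊X ^ c⌋₊ → V Q n) (z t2 : V Q n), exp (-X ^ k) ≤ 𝔼 t1 ∈ bx Q n T6,
      lap (exp (-X ^ c)) (fun i => ξ i ⬝ᵥ (t1 - t2)) *
        (χ (z + t1 - t2) * (g (z + t1 - t2) - (1 - ε) * θ))

theorem km0 (hKM : KM) {ε : ℝ} (hε : 0 < ε) (hε1 : ε ≤ 1 / 100) :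
    ∃ c k : ℕ, 1 ≤ c ∧ c ≤ k ∧ KM0 ε c k := by
  obtain ⟨c, k, hc1, hck, hKM⟩ := hKM ε hε hε1
  refine ⟨c, k, hc1, hck, ?_⟩
  intro X Z Q _ n θ W T6 χ u v g hk hX hXZ hZ hn h6 hW hQ hχ hMix hu hv hg hθ i1 i2 i3
  have hW1 : 1 ≤ W := by
    exact_mod_cast (one_le_exp (pow_nonneg (hX.trans hXZ) k)).trans hW
  have r1 : X ^ k * exp (-X) ≤ 1 := by
    have h1 : X ^ k ≤ exp X := le_trans (by gcongr) hZ
    have h2 : exp X * exp (-X) = 1 := by rw [← exp_add]; simp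
    rw [← h2]
    gcongr
  have x1 : exp (-X) ≤ 1 := exp_le_one_iff.2 (by linarith)
  have x2 : 1 ≤ exp X := one_le_exp hX
  have gap : ∀ a : ℕ, ((W ^ a * T6 : ℕ) : ℝ) * exp (Z ^ k) ≤ (W ^ (a + 1) * T6 : ℕ) := by
    intro a
    push_cast
    calc (W : ℝ) ^ a * T6 * exp (Z ^ k) ≤ W ^ a * T6 * W := by gcongr
      _ = _ := by ring
  have p2 : 1 ≤ W ^ 3 * T6 := Nat.mul_pos (Nat.pow_pos hW1) h6
  have p3 : 1 ≤ W ^ 2 * T6 := Nat.mul_pos (Nat.pow_pos hW1) h6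
  have p4 : 1 ≤ W * T6 := Nat.mul_pos hW1 h6
  obtain ⟨ξ, hξ⟩ := hKM X X Z Q n (Fin 0) 0 0 0 0 1 1 (exp (-X)) θ
    (W ^ 3 * T6) (W ^ 2 * T6) (W * T6) T6 (fun _ => 1) (fun _ => 1) χ u v g
    ⟨hk, le_rfl, hXZ, hZ⟩ hn (by simpa using hX) le_rfl x1 r1 r1 h6 (by simpa using gap 0)
    (by simpa using gap 1) (gap 2) hQ (by rw [mas_zero _ p2]; exact x1)
    (by rw [mas_zero _ p3]; exact x1) (by rw [mas_zero _ p4]; exact x1)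
    (fun _ => ⟨zero_le_one, x2⟩) (fun _ => ⟨zero_le_one, x2⟩) hχ
    (mix_one (exp_pos _).le) (mix_one (exp_pos _).le) hMix
    (fun x => ⟨(hu _).1, by rw [mul_one]; exact (hu _).2.trans x2⟩)
    (fun x => ⟨(hv _).1, by rw [mul_one]; exact (hv _).2.trans x2⟩) hg hθ
    (by simp only [bet_zero _ p3, bet_zero _ p4, one_mul]; exact i1)
    (by simp only [bet_zero _ p2, one_mul]; exact i2)
    (by simp only [bet_zero _ p2, bet_zero _ p3, bet_zero _ p4, one_mul]; exact i3)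
  obtain ⟨z, t2, hz⟩ := pick2 (bx_ne p2) (bx_ne h6) (exp_pos _) hξ
  refine ⟨ξ, z, t2, hz.trans (le_of_eq (expect_congr rfl fun t _ => ?_))⟩
  rw [lap_zero, mul_one, mul_assoc]

theorem num3 {c k C J : ℕ} {Y Z m : ℝ} (hck : c ≤ k) (hY : 10 ≤ Y) (hJ : 1 ≤ J)
    (s3 : 10 * Y ^ (4 * k) ≤ Y ^ C) (s4 : Y ^ 4 ≤ Y ^ (4 * k)) (s5 : Y ^ (4 * k) ≤ Z ^ (4 * k))
    (s6 : 100 * Y ^ 2 ≤ Y ^ 4) (s7 : 10 * Y ≤ Y ^ 2) (hm : exp (-(4 * Y ^ 2)) ≤ m) :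
    ((2 * (2 * J) * ⌊(Y ^ 4) ^ c⌋₊ : ℕ) : ℝ) ≤ J * Y ^ C ∧
      (⌊(Y ^ 4) ^ c⌋₊ : ℝ) ≤ exp (Z ^ (4 * k)) ∧ exp (3 * Y ^ 2) * exp Y ≤ exp (Z ^ (4 * k)) ∧
      (Y ^ 4) ^ c ≤ Z ^ (4 * k) ∧ exp (-Z ^ (4 * k)) ≤ exp (-(Y ^ 4) ^ k) ∧
      exp (-Y ^ C) ≤ exp (-(Y ^ 4) ^ k) / 2 * m := by
  have rc : (Y ^ 4) ^ c ≤ Y ^ (4 * k) := by
    rw [pow_mul]
    exact pow_le_pow_right₀ (by linarith) hck
  have rr : (⌊(Y ^ 4) ^ c⌋₊ : ℝ) ≤ Y ^ (4 * k) := (Nat.floor_le (by positivity)).trans rc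
  have e2 : (2 : ℝ) ≤ exp Y := by linarith [add_one_le_exp Y]
  refine ⟨?_, by linarith [add_one_le_exp (Z ^ (4 * k))], ?_, by linarith,
    exp_le_exp.2 (by rw [← pow_mul]; linarith), ?_⟩
  · push_cast
    have : (J : ℝ) * (4 * ⌊(Y ^ 4) ^ c⌋₊) ≤ J * Y ^ C := by gcongr; linarith
    linarith
  · rw [← exp_add]
    exact exp_le_exp.2 (by linarith)
  · have h1 : exp (-Y ^ C) * exp Y ≤ exp (-(Y ^ 4) ^ k) * exp (-(4 * Y ^ 2)) := by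
      rw [← exp_add, ← exp_add, ← pow_mul]
      exact exp_le_exp.2 (by linarith)
    have h2 : exp (-Y ^ C) * 2 ≤ exp (-Y ^ C) * exp Y := by gcongr
    have h3 : exp (-(Y ^ 4) ^ k) * exp (-(4 * Y ^ 2)) ≤ exp (-(Y ^ 4) ^ k) * m := by gcongr
    linarith

theorem num0 {k C : ℕ} {ε X Y Z W : ℝ} (hε : 0 < ε) (hε1 : ε ≤ 1 / 100)
    (hC : C = 4 * k + 10 + ⌈10 / ε⌉₊) (hk : 1 ≤ k) (hPar : Par C X Y Z) (hW : exp (Z ^ C) ≤ W) :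
    10 ≤ Y ∧ Y ≤ Z ∧ Z ^ C ≤ exp Y ∧ exp (-Y) ≤ ε / 10 ∧ 20 ≤ Z ^ C ∧ exp (5 * Y) ≤ W ∧
      exp (5 * Y) ≤ exp (Y ^ C) ∧ (k : ℝ) ≤ Y ^ 4 ∧ (Z ^ 4) ^ k ≤ exp (Y ^ 4) ∧
      exp ((Z ^ 4) ^ k) ≤ W ∧ exp Y ≤ exp (Y ^ 4) ∧ exp (3 * Y ^ 2) ≤ exp (Y ^ 4) ∧
      exp (-Y ^ 4) ≤ 1 / 4 ∧ Z ≤ Z ^ 4 ∧ 10 ≤ Z ^ (4 * k) ∧ Z ≤ exp (Z ^ (4 * k)) ∧
      exp (10 * Z ^ (4 * k)) ≤ W ∧ 2 ≤ exp Y := by
  obtain ⟨hCX, hXY, hYZ, hZX⟩ := hPar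
  have hC1 : 4 * (k : ℝ) + 10 + ⌈10 / ε⌉₊ ≤ Y := by
    have : (C : ℝ) = 4 * (k : ℝ) + 10 + ⌈10 / ε⌉₊ := by rw [hC]; push_cast; ring
    linarith
  have hk0 : (0 : ℝ) ≤ k := Nat.cast_nonneg _
  have hce : 10 / ε ≤ (⌈10 / ε⌉₊ : ℝ) := Nat.le_ceil _
  have hce0 : (0 : ℝ) ≤ ⌈10 / ε⌉₊ := Nat.cast_nonneg _
  have hY : 10 ≤ Y := by linarith
  obtain ⟨s1, s2, s3, s4, s5, s6, s7, s8, s9⟩ := sizes (C := C) hk (by omega) hY hYZ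
  have hZY : Z ^ C ≤ exp Y := hZX.trans (exp_le_exp.2 hXY)
  have he : exp (-Y) ≤ ε / 10 := by
    have h1 : 10 / ε ≤ exp Y := by linarith [add_one_le_exp Y]
    rw [exp_neg, inv_le_comm₀ (exp_pos _) (by positivity), inv_div]
    exact h1
  have y4 : Y ≤ Y ^ 4 := by linarith
  have h1 : exp (-Y ^ 4) ≤ exp (-Y) := exp_le_exp.2 (by linarith)
  refine ⟨hY, hYZ, hZY, he, by linarith, (exp_le_exp.2 (by linarith)).trans hW,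
    exp_le_exp.2 (by linarith), by linarith, ?_, ?_, exp_le_exp.2 y4, exp_le_exp.2 (by linarith),
    by linarith, by linarith, by linarith, by linarith [add_one_le_exp (Z ^ (4 * k))],
    (exp_le_exp.2 s1).trans hW, by linarith [add_one_le_exp Y]⟩
  · rw [← pow_mul]
    exact (by linarith : Z ^ (4 * k) ≤ Z ^ C).trans (hZY.trans (exp_le_exp.2 y4))
  · rw [← pow_mul]
    exact (exp_le_exp.2 (by linarith)).trans hW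

theorem fin_of (hS : SM) (hA : AVG) (hE : EQ) (hKM : KM) (hK : KILL) (hP : POP) : FIN := by
  intro ε hε hε1
  obtain ⟨c, k, hc1, hck, hKM⟩ := km0 hKM (half_pos hε) (by linarith)
  refine ⟨4 * k + 10 + ⌈10 / ε⌉₊, fun X Y Z Q _ n J T W K0 ι _ _ f θ lam κ δ q Ψ K hPar hn hJ hJZ
    hJn hι hW hT hQ hf hθ1 hθ2 hl0 hl hκ hK0 hδ0 hδ hL hTr hReg hR => ?_⟩
  generalize hC : 4 * k + 10 + ⌈10 / ε⌉₊ = C at *
  obtain ⟨hY, hYZ, hZY, he, hZC, w5, y5, k4, z4, wk, y4, y34, x4, zz, b10, zb, wb, e2⟩ :=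
    num0 hε hε1 hC.symm (hc1.trans hck) hPar hW
  obtain ⟨s1, s2, s3, s4, s5, s6, s7, s8, s9⟩ :=
    sizes (C := C) (hc1.trans hck) (by omega) hY hYZ
  obtain ⟨hW2, hWT, hlW⟩ := scales hZC hW hT
  obtain ⟨t1, t2, t3, t4, t5, t6, t7, t8, t9, t10, t11⟩ := scales2 hW2 hWT hQ
  have hW1 : 1 ≤ W := by omega
  generalize hT6 : T / W ^ 5 = T6 at t2 t3 t4 t9
  have h6 : 1 ≤ T6 := t1.trans t2
  obtain ⟨u, v, hu, hv, hR⟩ := hR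
  obtain ⟨θ1, θ2, θ3⟩ := th_bounds hε hε1 hθ1 hθ2
  obtain ⟨Ψ', K', hK', hL', hF, mlow, m1, hχ, hR1⟩ := stage0 hS hA hP hY s7 hι hl0 hl he
    (by linarith) hZY (w5.trans (by exact_mod_cast t8)) hL hTr hu hv hf (by linarith) hκ t11
    (Nat.mul_pos hW1 t11) hR
  generalize (1 - ε / 10) / (1 + ε / 10) * θ = θ' at θ1 θ2 θ3 hR1
  have m0 : 0 < avg K Ψ' q.c := (exp_pos _).trans_le mlow
  have hκ0 : 0 < κ := (exp_pos _).trans_le hκ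
  have θ0 : 0 ≤ θ' := le_trans (by norm_num) θ1
  obtain ⟨n1, n2, n3, n4, n5⟩ := num1 hY hYZ hn s1 s2 s6 s7 s8 s9 hκ hδ mlow hW
  have hfθ : ∀ x w, 0 ≤ w → w ≤ 2 → |f x - w| ≤ exp Y := fun x w w0 w2 =>
    abs_le.2 ⟨by linarith only [(hf x).1, w2, e2], by linarith only [(hf x).2, w0]⟩
  obtain ⟨a0, b0, hin⟩ := stage1 (Φ := fun x => Ψ' (q.ev x)) hu hv
    (fun x => ⟨(hL'.pos _).le, hL'.le_one _⟩) (fun x => hfθ x θ' θ0 θ2) hW1 t11 h6 t4 t5 m0 m1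
    hκ0.le n2 hR1
  have g3 : T6 ≤ W ^ 2 * T6 := Nat.le_mul_of_pos_left _ (Nat.pow_pos hW1)
  have g2 : T6 ≤ W ^ 3 * T6 := Nat.le_mul_of_pos_left _ (Nat.pow_pos hW1)
  have g32 : W ^ 2 * T6 ≤ W ^ 3 * T6 :=
    Nat.mul_le_mul_right _ (Nat.pow_le_pow_right hW1 (by norm_num))
  have hMix : Mix (fun x => Ψ' (q.ev (a0 + b0 + x)) / avg K Ψ' q.c) T6 (2 * (W ^ 3 * T6))
      (exp (-Z ^ (4 * k))) :=
    mix_of hA hE t7 hTr hL' hF hReg hδ0 (by exact_mod_cast (hK'.trans y5).trans hK0) t1 t2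
      (by have := Nat.le_mul_of_pos_left T hW1; omega) n1 (a0 + b0)
  obtain ⟨i1, i2, i3⟩ := km_in (u := fun x => u (a0 + x)) (v := fun x => v (b0 + x))
    (χ := fun x => Ψ' (q.ev (a0 + b0 + x)) / avg K Ψ' q.c) (g := fun x => f (a0 + b0 + x))
    (fun x => hu _) (fun x => hv _) (fun x => (hχ _).1) (fun x => hf _) hMix (h6.trans g2)
    (h6.trans g3) (Nat.mul_pos hW1 h6) g3 (by omega) g2 (by omega) θ0 θ2 (exp_pos Y) n3 n4 hin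
  obtain ⟨ξ, z, t2', hz⟩ := hKM (Y ^ 4) (Z ^ 4) Q n θ' W T6
    (fun x => Ψ' (q.ev (a0 + b0 + x)) / avg K Ψ' q.c) (fun x => u (a0 + x)) (fun x => v (b0 + x))
    (fun x => f (a0 + b0 + x)) k4 (by positivity) s9 z4 (hn.trans zz) h6 wk (by omega)
    (fun x => ⟨(hχ _).1, (hχ _).2.trans y34⟩) (by rw [← pow_mul]; exact hMix) (fun x => hu _)
    (fun x => hv _) (fun x => ⟨(hf _).1, (hf _).2.trans y4⟩) (x4.trans θ1) (n5.trans i1)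
    (n5.trans i2) i3
  obtain ⟨r1, r2, r3, r4, r5, r6⟩ := num3 hck hY hJ s3 s4 s5 s6 s7 mlow
  have θ4 : 0 ≤ (1 - ε / 2) * θ' ∧ (1 - ε / 2) * θ' ≤ 2 :=
    ⟨mul_nonneg (by linarith only [hε1]) θ0,
      (mul_le_of_le_one_left θ0 (by linarith only [hε])).trans θ2⟩
  refine stage2 (q := q) (x1 := a0 + b0 + z - t2') (t2 := t2') (ξ := ξ) hK t7 hL' m0 hW2 hlW t10 hT6.symm t3
    hJ t6 (by exact_mod_cast r1.trans hJn) r1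
    (mul_le_mul_of_nonneg_right (by linarith only [hZC]) (by linarith only [hlW])) (hn.trans zb) r2
    r3 r4 r5 b10 wb (fun x => ?_) θ3 r6 ?_
  · rw [abs_mul, abs_of_nonneg (hχ x).1]
    exact mul_le_mul (hχ x).2 (hfθ x _ θ4.1 θ4.2) (abs_nonneg _) (exp_pos _).le
  · refine hz.trans (le_of_eq (expect_congr rfl fun t _ => ?_))
    rw [show a0 + b0 + (z + t - t2') = a0 + b0 + z - t2' + t by abel]

end Vale.Agent.P057Z.Fn
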