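import Vale.Agent.P057Z.Fn.A

/-! The last step: inequalities between the parameters. -/

set_option linter.all false

open Finset
open scoped BigOperators

namespace Vale.Agent.P057Z.Fn

open Real

/-- the basic sizes -/
theorem sizes {k C : ℕ} {Y Z : ℝ} (hk : 1 ≤ k) (hC : 4 * k + 10 ≤ C) (hY : 10 ≤ Y) (hYZ : Y ≤ Z) :
    10 * Z ^ (4 * k) ≤ Z ^ C ∧ Z ^ 4 ≤ Z ^ (4 * k) ∧ 10 * Y ^ (4 * k) ≤ Y ^ C ∧
      Y ^ 4 ≤ Y ^ (4 * k) ∧ Y ^ (4 * k) ≤ Z ^ (4 * k) ∧ 100 * Y ^ 2 ≤ Y ^ 4 ∧ 10 * Y ≤ Y ^ 2 ∧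
      1000 * Z ≤ Z ^ 4 ∧ Y ^ 4 ≤ Z ^ 4 := by
  have hZ : 10 ≤ Z := hY.trans hYZ
  have a : ∀ x : ℝ, 10 ≤ x → 10 * x ^ (4 * k) ≤ x ^ C := fun x hx =>
    calc 10 * x ^ (4 * k) ≤ x * x ^ (4 * k) := by gcongr
      _ = x ^ (4 * k + 1) := by ring
      _ ≤ x ^ C := pow_le_pow_right₀ (by linarith) (by omega)
  have b : ∀ x : ℝ, 10 ≤ x → x ^ 4 ≤ x ^ (4 * k) := fun x hx =>
    pow_le_pow_right₀ (by linarith) (by omega)
  have h2 : (100 : ℝ) ≤ Y ^ 2 := by nlinarith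
  have h3 : (1000 : ℝ) ≤ Z ^ 3 := by
    have := pow_le_pow_left₀ (by norm_num : (0 : ℝ) ≤ 10) hZ 3
    linarith
  refine ⟨a Z hZ, b Z hZ, a Y hY, b Y hY, by gcongr, ?_, by nlinarith, ?_, by gcongr⟩
  · calc 100 * Y ^ 2 ≤ Y ^ 2 * Y ^ 2 := by gcongr
      _ = Y ^ 4 := by ring
  · calc 1000 * Z ≤ Z ^ 3 * Z := by gcongr
      _ = Z ^ 4 := by ring

theorem tm_lower {Y : ℝ} {d : ℕ} (hY : 10 ≤ Y) (hd : (d : ℝ) ≤ Y) :
    exp (-(3 * Y ^ 2)) ≤ (exp (-Y) / (3 * (d + 1))) ^ d / 3 := by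
  have h1 : 3 * ((d : ℝ) + 1) ≤ exp Y := by
    have h := add_one_le_exp (Y / 2)
    have e : exp Y = exp (Y / 2) * exp (Y / 2) := by rw [← exp_add]; ring_nf
    have : (Y / 2 + 1) * (Y / 2 + 1) ≤ exp (Y / 2) * exp (Y / 2) := by gcongr
    nlinarith
  have h2 : exp (-(2 * Y)) ≤ exp (-Y) / (3 * (d + 1)) := by
    rw [le_div_iff₀ (by positivity)]
    calc exp (-(2 * Y)) * (3 * (d + 1)) ≤ exp (-(2 * Y)) * exp Y := by gcongr
      _ = exp (-Y) := by rw [← exp_add]; ring_nf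
  have h3 : exp (-(2 * Y ^ 2)) ≤ exp (-(2 * Y)) ^ d := by
    rw [← exp_nat_mul]
    exact exp_le_exp.2 (by nlinarith)
  have h4 : (3 : ℝ) ≤ exp (Y ^ 2) := by nlinarith [add_one_le_exp (Y ^ 2)]
  rw [le_div_iff₀ (by norm_num)]
  calc exp (-(3 * Y ^ 2)) * 3 ≤ exp (-(3 * Y ^ 2)) * exp (Y ^ 2) := by gcongr
    _ = exp (-(2 * Y ^ 2)) := by rw [← exp_add]; ring_nf
    _ ≤ _ := h3.trans (pow_le_pow_left₀ (exp_pos _).le h2 d)

/-- the scales -/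
theorem scales {T W : ℕ} {A : ℝ} (hA : 20 ≤ A) (hW : exp A ≤ W) (hT : A * log W ≤ log T) :
    2 ≤ W ∧ W ^ 20 ≤ T ∧ 1 ≤ log W := by
  have h1 : (21 : ℝ) ≤ W := by linarith [add_one_le_exp A]
  have hW2 : 2 ≤ W := by exact_mod_cast (by linarith : (2 : ℝ) ≤ W)
  have h2 : A ≤ log W := (le_log_iff_exp_le (by linarith)).2 hW
  have h3 : 0 < log T := by nlinarith
  have hT0 : (0 : ℝ) < T := by
    rcases Nat.eq_zero_or_pos T with h | h
    · simp [h] at h3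
    · exact_mod_cast h
  refine ⟨hW2, ?_, by linarith⟩
  have h4 : log ((W : ℝ) ^ 20) ≤ log T := by
    rw [log_pow]
    push_cast
    nlinarith
  exact_mod_cast (log_le_log_iff (by positivity) hT0).1 h4

theorem scales2 {T W Q : ℕ} (hW : 2 ≤ W) (hT : W ^ 20 ≤ T) (hQ : (W * T) ^ 2 ≤ Q) :
    1 ≤ T / W ^ 20 ∧ T / W ^ 20 ≤ T / W ^ 5 ∧ W ^ 4 ≤ T / W ^ 5 ∧ W ^ 5 * (T / W ^ 5) ≤ T ∧
      W * T ≤ Q ∧ T < Q ∧ 2 < Q ∧ W ≤ Q ∧ 4 * (W ^ 3 * (T / W ^ 5)) ≤ T ∧ W ^ 5 ≤ T ∧ 1 ≤ T := by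
  have hW1 : 1 ≤ W := by omega
  have hp : ∀ a b : ℕ, a ≤ b → W ^ a ≤ W ^ b := fun a b h => Nat.pow_le_pow_right hW1 h
  have p20 : 0 < W ^ 20 := by positivity
  have p5 : 0 < W ^ 5 := by positivity
  have hT1 : 1 ≤ T := le_trans p20 hT
  have hWT : W ≤ T := le_trans (by simpa using hp 1 20 (by norm_num)) hT
  have a1 : W * T ≤ Q := le_trans (Nat.le_self_pow (by norm_num) _) hQ
  have a2 : 2 * T ≤ W * T := Nat.mul_le_mul_right _ hW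
  have a3 : W ^ 5 * (T / W ^ 5) ≤ T := Nat.mul_div_le _ _
  refine ⟨Nat.div_pos hT p20, Nat.div_le_div_left (hp 5 20 (by norm_num)) p5, ?_, a3, a1,
    by omega, by omega, by omega, ?_, (hp 5 20 (by norm_num)).trans hT, hT1⟩
  · rw [Nat.le_div_iff_mul_le p5, ← pow_add]
    exact (hp _ 20 (by norm_num)).trans hT
  · have : 4 ≤ W ^ 2 := by nlinarith
    calc 4 * (W ^ 3 * (T / W ^ 5)) ≤ W ^ 2 * (W ^ 3 * (T / W ^ 5)) := Nat.mul_le_mul_right _ this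
      _ = W ^ 5 * (T / W ^ 5) := by ring
      _ ≤ T := a3

/-- the error of the localisation -/
theorem err_loc {n T W T6 : ℕ} {S κ : ℝ} (hW : 1 ≤ W) (hT : 1 ≤ T) (h : W ^ 5 * T6 ≤ T)
    (hS : 0 ≤ S) (hκ : 24 * n * S ≤ κ * W) :
    2 * n * ((W ^ 2 * T6 + W * T6 : ℕ) : ℝ) / T * S +
      2 * n * ((W ^ 3 * T6 : ℕ) : ℝ) / ((W * T : ℕ) : ℝ) * S ≤ κ / 4 := by
  have hW' : (1 : ℝ) ≤ W := by exact_mod_cast hW
  have hT' : (1 : ℝ) ≤ T := by exact_mod_cast hT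
  have hp : ∀ a b : ℕ, a ≤ b → W ^ a ≤ W ^ b := fun a b h => Nat.pow_le_pow_right hW h
  have a1 : (W ^ 2 * T6 + W * T6) * W ≤ 2 * T := by
    have b1 : W ^ 3 * T6 ≤ W ^ 5 * T6 := Nat.mul_le_mul_right _ (hp 3 5 (by norm_num))
    have b2 : W ^ 2 * T6 ≤ W ^ 5 * T6 := Nat.mul_le_mul_right _ (hp 2 5 (by norm_num))
    have e : (W ^ 2 * T6 + W * T6) * W = W ^ 3 * T6 + W ^ 2 * T6 := by ring
    omega
  have a2 : W ^ 3 * T6 ≤ T := le_trans (Nat.mul_le_mul_right _ (hp 3 5 (by norm_num))) h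
  have c1 : ((W ^ 2 * T6 + W * T6 : ℕ) : ℝ) / T ≤ 2 / W := by
    rw [div_le_div_iff₀ (by linarith) (by linarith)]
    exact_mod_cast a1
  have c2 : ((W ^ 3 * T6 : ℕ) : ℝ) / ((W * T : ℕ) : ℝ) ≤ 1 / W := by
    rw [div_le_div_iff₀ (by push_cast; positivity) (by linarith)]
    have : W ^ 3 * T6 * W ≤ 1 * (W * T) := by nlinarith
    exact_mod_cast this
  have c3 : 6 * n * S / W ≤ κ / 4 := by
    rw [div_le_iff₀ (by linarith)]
    linarith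
  calc _ = 2 * n * S * (((W ^ 2 * T6 + W * T6 : ℕ) : ℝ) / T) +
        2 * n * S * (((W ^ 3 * T6 : ℕ) : ℝ) / ((W * T : ℕ) : ℝ)) := by ring
    _ ≤ 2 * n * S * (2 / W) + 2 * n * S * (1 / W) := by gcongr
    _ = 6 * n * S / W := by ring
    _ ≤ κ / 4 := c3

/-- the new side -/
theorem side {T W T6 T0 J : ℕ} (hW : 2 ≤ W) (hlW : 1 ≤ log W) (h5 : W ^ 5 ≤ T)
    (hT6 : T6 = T / W ^ 5) (h4 : W ^ 4 ≤ T6) (hT0 : 1 ≤ T0) (hJ : 1 ≤ J)
    (hl : log T0 ≤ log T6 / (2 * J : ℕ)) :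
    1 ≤ T6 / (T0 * W ^ 2) ∧ (1 - 1 / (J : ℝ)) * log T - 9 * log W ≤ log (T6 / (T0 * W ^ 2) : ℕ) := by
  have hW0 : (0 : ℝ) < W := by exact_mod_cast (by omega : 0 < W)
  have hT00 : (0 : ℝ) < T0 := by exact_mod_cast hT0
  have p4 : 0 < W ^ 4 := by positivity
  have h60 : (0 : ℝ) < T6 := by exact_mod_cast lt_of_lt_of_le p4 h4
  have hJ' : (1 : ℝ) ≤ J := by exact_mod_cast hJ
  have l6 : 0 ≤ log T6 := log_natCast_nonneg _
  have l4 : 4 * log W ≤ log T6 := by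
    have := log_le_log (by positivity) (show ((W : ℝ) ^ 4) ≤ T6 by exact_mod_cast h4)
    rw [log_pow] at this
    exact_mod_cast this
  have a1 : log T0 ≤ log T6 / 2 := hl.trans (by
    push_cast
    exact div_le_div_of_nonneg_left l6 (by norm_num) (by linarith))
  have a2 : log T0 ≤ 1 / J * log T6 := hl.trans (by
    push_cast
    rw [one_div_mul_eq_div]
    exact div_le_div_of_nonneg_left l6 (by linarith) (by linarith))
  have e : log ((T0 * W ^ 2 : ℕ) : ℝ) = log T0 + 2 * log W := by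
    push_cast
    rw [log_mul hT00.ne' (by positivity), log_pow]
    norm_num
  have a3 : T0 * W ^ 2 ≤ T6 := by
    have : log ((T0 * W ^ 2 : ℕ) : ℝ) ≤ log T6 := by rw [e]; linarith
    exact_mod_cast (log_le_log_iff (by push_cast; positivity) h60).1 this
  have p2 : 0 < T0 * W ^ 2 := by positivity
  have b1 := Rg.log_div p2 a3
  have b2 := Rg.log_div (show 1 ≤ W ^ 5 from Nat.one_le_pow _ _ (by omega)) h5
  rw [← hT6] at b2
  rw [e] at b1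
  have e5 : log ((W ^ 5 : ℕ) : ℝ) = 5 * log W := by push_cast; rw [log_pow]; norm_num
  rw [e5] at b2
  have l2 : log 2 ≤ 1 := by linarith [log_two_lt_d9]
  have l2' : 0 ≤ log 2 := log_nonneg (by norm_num)
  refine ⟨Nat.div_pos a3 p2, ?_⟩
  have j0 : 0 ≤ 1 / (J : ℝ) := by positivity
  have j1 : 1 / (J : ℝ) ≤ 1 := by rw [div_le_one (by linarith)]; exact hJ'
  have c1 : (1 - 1 / (J : ℝ)) * (log T - 5 * log W - log 2) ≤ (1 - 1 / (J : ℝ)) * log T6 :=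
    mul_le_mul_of_nonneg_left b2 (by linarith)
  have c2 : 0 ≤ 1 / (J : ℝ) * (5 * log W + log 2) := by positivity
  nlinarith

/-- the errors of the last substitution -/
theorem err_last {n n' r W T6 T0 T' : ℕ} {B S a κ : ℝ} (hW : 1 ≤ W) (h6 : 1 ≤ T6) (hn' : n' ≤ n)
    (hT' : T0 * W ^ 2 * T' ≤ T6) (hT0 : 1 ≤ T0) (hn : (n : ℝ) ≤ exp B) (hr : (r : ℝ) ≤ exp B)
    (hS : S ≤ exp B) (hS0 : 0 ≤ S) (ha : a ≤ B) (hκ : exp (-B) ≤ κ) (hB : 10 ≤ B)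
    (hWB : exp (10 * B) ≤ W) :
    1 / exp (-a) * (r * (n' * (T' * (1 / ((W : ℝ) * T6))))) ≤ exp (-(7 * B)) ∧
      2 * n * ((n' * T0 * T' : ℕ) : ℝ) / T6 * S + 2 * exp (-(7 * B)) * S ≤ κ / 2 := by
  have hW' : (1 : ℝ) ≤ W := by exact_mod_cast hW
  have h6' : (1 : ℝ) ≤ T6 := by exact_mod_cast h6
  have hn'' : (n' : ℝ) ≤ exp B := le_trans (by exact_mod_cast hn') hn
  have pW : 1 ≤ W ^ 2 := Nat.one_le_pow _ _ hW
  have w1 : 1 / (W : ℝ) ≤ exp (-(10 * B)) := by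
    rw [exp_neg, ← one_div]
    exact one_div_le_one_div_of_le (exp_pos _) hWB
  have t1 : T' ≤ T6 := le_trans (Nat.le_mul_of_pos_left _ (Nat.mul_pos hT0 pW)) hT'
  have t2 : T0 * T' * W ≤ T6 := by
    refine le_trans ?_ hT'
    have : W ≤ W ^ 2 := Nat.le_self_pow (by norm_num) _
    calc T0 * T' * W ≤ T0 * T' * W ^ 2 := Nat.mul_le_mul_left _ this
      _ = T0 * W ^ 2 * T' := by ring
  have c1 : (T' : ℝ) * (1 / ((W : ℝ) * T6)) ≤ 1 / W := by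
    rw [mul_one_div, div_le_div_iff₀ (by positivity) (by linarith)]
    have : (T' : ℝ) ≤ T6 := by exact_mod_cast t1
    nlinarith
  have c2 : ((T0 * T' : ℕ) : ℝ) / T6 ≤ 1 / W := by
    rw [div_le_div_iff₀ (by linarith) (by linarith), one_mul]
    exact_mod_cast t2
  have e8 : (8 : ℝ) ≤ exp B := by linarith [add_one_le_exp B]
  constructor
  · calc 1 / exp (-a) * (r * (n' * (T' * (1 / ((W : ℝ) * T6)))))
        ≤ exp B * (exp B * (exp B * exp (-(10 * B)))) := by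
          have : 1 / exp (-a) ≤ exp B := by rw [exp_neg, one_div, inv_inv]; exact exp_le_exp.2 ha
          have := c1.trans w1
          gcongr
      _ = exp (-(7 * B)) := by simp only [← exp_add]; ring_nf
  · have d1 : 2 * n * ((n' * T0 * T' : ℕ) : ℝ) / T6 * S ≤ 2 * exp (-(7 * B)) := by
      calc 2 * n * ((n' * T0 * T' : ℕ) : ℝ) / T6 * S
          = 2 * (n * (n' * (((T0 * T' : ℕ) : ℝ) / T6 * S))) := by push_cast; ring
        _ ≤ 2 * (exp B * (exp B * (exp (-(10 * B)) * exp B))) := by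
          have := c2.trans w1
          gcongr
        _ = 2 * exp (-(7 * B)) := by simp only [← exp_add]; ring_nf
    have d2 : 2 * exp (-(7 * B)) * S ≤ 2 * exp (-(6 * B)) := by
      calc 2 * exp (-(7 * B)) * S ≤ 2 * exp (-(7 * B)) * exp B := by gcongr
        _ = 2 * exp (-(6 * B)) := by rw [mul_assoc, ← exp_add]; ring_nf
    have d3 : exp (-(7 * B)) ≤ exp (-(6 * B)) := exp_le_exp.2 (by linarith)
    have d4 : 8 * exp (-(6 * B)) ≤ exp (-B) := by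
      calc 8 * exp (-(6 * B)) ≤ exp B * exp (-(6 * B)) := by gcongr
        _ = exp (-(5 * B)) := by rw [← exp_add]; ring_nf
        _ ≤ exp (-B) := exp_le_exp.2 (by linarith)
    linarith

end Vale.Agent.P057Z.Fn
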